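import Vale.Agent.P129B.Nat0

/-!
# Definable subtypes of coded types
-/

namespace Vale.Agent.P129B

universe v

variable {N : Type v} [ZM N]
variable {α β γ δ : Type*} [Coded N α] [Coded N β] [Coded N γ] [Coded N δ]

/-! ### Definable subtypes -/

/-- the internal elements with a property -/
def St (N : Type v) [ZM N] {α : Type*} [Coded N α] (P : α → Prop) : Type _ :=
  {a : α // Intl N a ∧ P a}

section St

variable {P : α → Prop} [hP : Fact (DefF N P)]

noncomputable instance codedSt : Coded N (St N P) :=
  Coded.pull (α := α) Subtype.val (fun _ _ _ _ h => Subtype.ext h)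
    ((DefF.and (DefF.dom α DefF.id.code) hP.out).congrP fun a ha =>
      ⟨fun h => ⟨⟨a, ha, h.2⟩, rfl⟩, fun ⟨s, h⟩ => h ▸ ⟨⟨_, s.2.1, rfl⟩, s.2.2⟩⟩)

theorem code_st (x : St N P) : code N x = code N x.1 := rfl

omit hP in
instance intl_st_val (x : St N P) : Intl N x.1 := x.2.1

instance intl_st (x : St N P) : Intl N x := ⟨x.2.1⟩

instance [Bdd N α] : Tot N (St N P) where
  car := by
    have h1 : Intl N {a : α | Intl N a ∧ P a} := intl_setOf hP.out
    refine ⟨code N _, fun x => (mem_code_set h1).trans ?_⟩
    constructor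
    · rintro ⟨a, ha, rfl⟩; exact ⟨⟨a, ha⟩, intl_st ⟨a, ha⟩, rfl⟩
    · rintro ⟨a, -, rfl⟩; exact ⟨a.1, a.2, rfl⟩
  all := intl_st

theorem defF_st_val : DefF N (fun x : St N P => x.1) :=
  ⟨fun x _ => x.2.1, (DefF.id (N := N) (α := St N P)).2⟩

@[fun_prop] theorem DefF.stVal {f : β → St N P} (hf : DefF N f) : DefF N (fun a => (f a).1) :=
  defF_st_val.comp hf

/-- A function into a definable subtype is definable if its values are. -/
theorem defF_st {f : β → St N P} (hf : DefF N (fun a => (f a).1)) : DefF N f :=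
  ⟨fun _ _ => inferInstance, hf.2⟩

@[fun_prop] theorem DefF.stApp [Tot N γ] {P : (γ → δ) → Prop} [Fact (DefF N P)]
    {f : β → St N P} {g : β → γ} (hf : DefF N f) (hg : DefF N g) :
    DefF N (fun a => (f a).1 (g a)) := hf.stVal.ap hg

end St

instance factTrue : Fact (DefF N (fun _ : α => True)) := ⟨DefF.const True⟩

/-- all internal elements of a type -/
abbrev IS (N : Type v) [ZM N] (α : Type*) [Coded N α] : Type _ := St N (fun _ : α => True)

/-- A definable function whose values are internal and have the property. -/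
theorem DefF.stMk {P : α → Prop} [Fact (DefF N P)] {f : β → α} (hf : DefF N f)
    (h : ∀ b, Intl N (f b) ∧ P (f b)) : DefF (β := St N P) N (fun b => ⟨f b, h b⟩) :=
  defF_st hf

end Vale.Agent.P129B
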