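import Vale.Agent.P129B.Choice

/-!
# The free set principle inside a model
-/

namespace Vale.Agent.P129B

universe v

variable {N : Type v} [ZM N]

/-- At each level `(T, m, k)` only one size `n` occurs, and at most `(n + 1) / (k + 1) ^ 2` of the
values `x ≤ n` are bad. -/
def Small {I : Type*} (S : Set (Set I × NN N × NN N × NN N × NN N)) : Prop :=
  ∀ T m k, (∀ n x n' x', (T, m, k, n, x) ∈ S → (T, m, k, n', x') ∈ S → n = n') ∧
    ∀ (n c : NN N) (e : NN N → NN N), Intl N e → (∀ i j, i < j → j < c → e i < e j) →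
      (∀ i, i < c → e i ≤ n ∧ (T, m, k, n, e i) ∈ S) → c * (k + 1) ^ 2 ≤ n + 1

variable (N) in
/-- The free set principle for the family `r`. -/
def FSFor (I : Type*) [Coded N I] [Tot N I] (r : I → NN N → NN N → NN N) : Prop :=
  Intl N r ∧ (∀ a k n, r a k n ≤ n) ∧
    ∀ S : Set (Set I × NN N × NN N × NN N × NN N), Intl N S → Small S →
      ∃ g : NN N → I, Intl N g ∧ ∀ T : Set (NN N), Intl N T → (∃ b, ∀ i ∈ T, i < b) →
        ∀ j, j ∉ T → ∀ m, ∃ k₀, ∀ k, k₀ ≤ k → ∀ n, (g '' T, m, k, n, r (g j) k n) ∉ S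

variable (N) in
/-- The free set principle. -/
def FS : Prop := ∃ (A : N) (r : El A → NN N → NN N → NN N), FSFor N (El A) r

end Vale.Agent.P129B
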