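import Vale.Agent.P129BO.Core
import Vale.Agent.P129BM.Spec

/-!
# The free set principle gives separable quotients
-/

namespace Vale.Agent.P129B

universe v

variable {N : Type v} [ZM N]
  {R : Type*} [Field R] [LinearOrder R] [IsStrictOrderedRing R] [Coded N R] [RF N R]
  {K : Type*} [Field K] [Algebra R K] [Nm K R] [KA R K] [Coded N K] [KF N R K]
  {E : Type*} [AddCommGroup E] [Module K E] [Nm E R] [NA R K E] [Coded N E] [NS N R K E]

theorem ev_dual : Ev N (fun (u : Dual N K E) (x : E) => u x) where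
  defF := by fun_prop
  sub _ _ _ := rfl
  smul _ _ _ := rfl
  le u x := u.le_opNorm x
  norming u _ hη := (u.exists_lt_apply_le (sub_lt_self _ hη)).imp fun _ h => ⟨h.1, h.2.le⟩

/-- **The main step**, from the other rows. -/
theorem main_of (hT : TE N R K E) (hU : UNB N R K E) (hN : NULLF N R K E) (hH : HASH N R K E)
    (hQ : QQK N R K) : MAIN N R K E := by
  rintro ⟨A, r, hFS⟩ hE
  by_contra hc
  obtain ⟨q, hq, hq'⟩ := hQ
  obtain ⟨φ, hφ, h1, h2⟩ := main_core hFS ev_dual (hT hE)
    (fun g hg h => hN g hg fun hd => hc (hU g hg h hd)) (q := q)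
    fun n c hc η hη => (hq' n c hc η hη).imp fun _ ht i hi => (ht i hi).1
  exact hc (hH φ hφ h1 fun n a ha η hη => h2 n a η ha hη)

end Vale.Agent.P129B
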