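import Vale.Agent.P129B.Sum

/-!
# Sums along strictly increasing finite sequences
-/

namespace Vale.Agent.P129B

universe v

variable {N : Type v} [ZM N] {β : Type*} [Coded N β] [Tot N β] [AddCommMonoid β] [PartialOrder β]
  [IsOrderedAddMonoid β] [DefAdd N β] [DefLE N β]

theorem isum_comp_le {f : NN N → β} (hf : DefF N f) (h0 : ∀ i, 0 ≤ f i) {e : NN N → NN N}
    (he : DefF N e) (c : NN N) (hm : ∀ i j, i < j → j < c → e i < e j) (b : NN N)
    (hb : ∀ i, i < c → e i < b) : isum (fun i => f (e i)) c ≤ isum f b := by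
  refine NN.ind (P := fun d => d ≤ c → ∀ b, (∀ i, i < d → e i < b) →
    isum (fun i => f (e i)) d ≤ isum f b) (by fun_prop) (fun _ b _ => ?_)
    (fun d ih hd b hb => ?_) c le_rfl b hb
  · rw [isum_zero]; exact isum_nonneg hf fun i _ => h0 i
  · have hd' : d < c := NN.add_one_le_iff.1 hd
    rw [isum_succ (by fun_prop)]
    calc isum (fun i => f (e i)) d + f (e d) ≤ isum f (e d) + f (e d) :=
          add_le_add_left (ih hd'.le (e d) fun i hi => hm i d hi hd') _
      _ = isum f (e d + 1) := (isum_succ hf _).symm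
      _ ≤ isum f b := isum_mono hf (NN.add_one_le_iff.2 (hb d (NN.lt_add_one d))) fun i _ => h0 i

end Vale.Agent.P129B
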