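import Vale.Agent.P129BO.FS
import Vale.Agent.P129BO.Cnt
import Vale.Agent.P129B.Real
import Vale.Agent.P129BZ.Scal
import Vale.Agent.P129BL.Enum
import Vale.Agent.P129BI.FP

/-!
# From the free set principle to a sequence of functionals with norming points
-/

namespace Vale.Agent.P129B

universe v

variable {N : Type v} [ZM N] {R : Type*} [Field R] [LinearOrder R] [IsStrictOrderedRing R]
  [Coded N R] [RF N R]

/-- Few values are large when the sum of the squares is small. -/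
theorem count_bad {v : NN N → R} (hv : DefF N v) {n k c : NN N}
    (hs : isum (fun j => v j ^ 2) (n + 1) ≤ ((rc R k + 1) ^ 4)⁻¹ * rc R (n + 1))
    {e : NN N → NN N} (he : DefF N e) (hm : ∀ i j, i < j → j < c → e i < e j)
    (hb : ∀ i, i < c → e i ≤ n ∧ 1 < (rc R k + 1) * v (e i)) : c * (k + 1) ^ 2 ≤ n + 1 := by
  have hk := rc_succ_pos (R := R) k
  have h1 : rc R c * ((rc R k + 1) ^ 2)⁻¹ ≤ isum (fun i => v (e i) ^ 2) c :=
    const_le_isum (by fun_prop) fun i hi => by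
      rw [inv_le_iff_one_le_mul₀' (by positivity), ← mul_pow]
      exact one_le_pow₀ (hb i hi).2.le
  have h2 := isum_comp_le (f := fun j => v j ^ 2) (by fun_prop) (fun j => sq_nonneg _) he c hm
    (n + 1) fun i hi => NN.lt_add_one_iff.2 (hb i hi).1
  have h3 := mul_le_mul_of_nonneg_left (h1.trans (h2.trans hs))
    (by positivity : 0 ≤ (rc R k + 1) ^ 4)
  rw [← rc_le (R := R), rc_mul, rc_pow, rc_succ R k]
  refine le_of_eq_of_le ?_ (h3.trans_eq ?_) <;> field_simp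

variable {K : Type*} [Field K] [Algebra R K] [Nm K R] [KA R K] [Coded N K] [KF N R K]
  {E : Type*} [AddCommGroup E] [Module K E] [Nm E R] [NA R K E] [Coded N E] [NS N R K E]
  {D : Type*} [AddCommGroup D] [Module K D] [Nm D R] [NA R K D] [Coded N D] [NS N R K D]

variable (N) in
/-- `D` acts on `E` like the dual space. -/
structure Ev (ev : D → E → K) : Prop where
  defF : DefF N (fun p : D × E => ev p.1 p.2)
  sub : ∀ φ ψ x, ev (φ - ψ) x = ev φ x - ev ψ x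
  smul : ∀ (c : K) φ x, ev (c • φ) x = c * ev φ x
  le : ∀ φ x, nm (ev φ x) ≤ nm φ * nm x
  norming : ∀ φ (η : R), 0 < η → ∃ x, nm x ≤ 1 ∧ nm φ - η ≤ nm (ev φ x)

variable {ev : D → E → K} {I : Type*} [Coded N I] [Tot N I]

variable (N ev) in
/-- the points `y m` norm the span of the functionals `φ a`, `a ∈ s` -/
def Nrm (φ : I → D) (s : Set I) (y : NN N → E) : Prop :=
  ∀ (M : NN N) (a : NN N → K), Intl N a → ∀ h : NN N → I, Intl N h →
    (∀ i, i < M → a i ≠ 0 → h i ∈ s) → ∀ η : R, 0 < η → ∃ m,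
      nm (isum (fun i => a i • φ (h i)) M) - η ≤ nm (ev (isum (fun i => a i • φ (h i)) M) (y m))

omit [NA R K E] in
theorem exists_nrm (hev : Ev N ev) {q : NN N → NN N → K} [Intl N q]
    (hq : ∀ (n : NN N) (c : NN N → K), Intl N c → ∀ η : R, 0 < η →
      ∃ t, ∀ i, i < n → nm (c i - q t i) ≤ η) {φ : I → D} [Intl N φ] (hφ : ∀ a, nm (φ a) = 1)
    (t : NN N → I) [Intl N t] :
    ∃ y : NN N → E, Intl N y ∧ (∀ m, nm (y m) ≤ 1) ∧ Nrm N ev φ (Set.range t) y := by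
  have hd := hev.defF
  have hq2 := DefF.ofIntl2 (N := N) q
  obtain ⟨u, hu⟩ : ∃ u : NN N → D, u = fun m =>
    isum (fun i => q m.p1 i • φ (t (m.p2.p1.en i))) m.p2.p2.p1 := ⟨_, rfl⟩
  have hu' : DefF N u := by rw [hu]; fun_prop
  obtain ⟨y, hy, h1⟩ := exists_intl_choiceT (N := N) (R := fun (m : NN N) (x : E) => nm x ≤ 1 ∧
    nm (u m) - (rc R m.p2.p2.p2 + 1)⁻¹ ≤ nm (ev (u m) x)) (by fun_prop)
    fun m => hev.norming _ _ (inv_pos.2 (rc_succ_pos _))
  refine ⟨y, hy, fun m => (h1 m).1, fun M a _ h _ hs η hη => ?_⟩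
  have hM := rc_succ_pos (R := R) M
  obtain ⟨t1, ht1⟩ := NN.exists_en_of (R := fun i j => a i ≠ 0 → t j = h i) (by fun_prop) M
    fun i hi => (em (a i = 0)).elim (fun c => ⟨0, fun d => absurd c d⟩)
      fun c => (hs i hi c).imp fun j hj _ => hj
  obtain ⟨t0, ht0⟩ := hq M a inferInstance (η / 3 / (rc R M + 1)) (by positivity)
  obtain ⟨l, hl⟩ := exists_inv_rc_lt N (by positivity : 0 < η / 3)
  refine ⟨NN.pr t0 (NN.pr t1 (NN.pr M l)), ?_⟩
  obtain ⟨h2, h3⟩ := h1 (NN.pr t0 (NN.pr t1 (NN.pr M l)))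
  have h4 : nm (isum (fun i => a i • φ (h i)) M - u (NN.pr t0 (NN.pr t1 (NN.pr M l)))) ≤ η / 3 := by
    simp only [hu, NN.p1_pr, NN.p2_pr]
    rw [← isum_sub (by fun_prop) (by fun_prop)]
    refine (nm_isum_le (by fun_prop) M).trans ((isum_le_const (c := η / 3 / (rc R M + 1))
      (by fun_prop) fun i hi => ?_).trans ?_)
    · have h5 : a i • φ (h i) = a i • φ (t (t1.en i)) :=
        (em (a i = 0)).elim (fun c => by rw [c, zero_smul, zero_smul]) fun c => by rw [ht1 i hi c]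
      rw [h5, ← sub_smul, nm_smul, hφ, mul_one]
      exact ht0 i hi
    · rw [← mul_div_assoc, div_le_iff₀ hM]
      nlinarith
  simp only [NN.p2_pr] at h3
  generalize u (NN.pr t0 (NN.pr t1 (NN.pr M l))) = w at h3 h4
  generalize y (NN.pr t0 (NN.pr t1 (NN.pr M l))) = x at h2 h3
  generalize isum (fun i => a i • φ (h i)) M = z at h4
  have h6 := nm_sub_nm_le z w
  have h7 := nm_sub_nm_le (ev w x) (ev z x)
  rw [nm_sub_rev, ← hev.sub] at h7
  have h8 := (hev.le (z - w) x).trans (mul_le_of_le_one_right (nm_nonneg _) h2)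
  linarith [hl l le_rfl]

omit [AddCommGroup E] [Module K E] [NA R K E] [NS N R K E] [NA R K D] in
theorem DefF.nrm (hev : Ev N ev) (φ : I → D) [Intl N φ] :
    DefF N (fun p : Set I × (NN N → E) => Nrm N ev φ p.1 p.2) := by
  have hd := hev.defF
  unfold Nrm
  fun_prop

/-- **The core of the main step.** -/
theorem main_core {r : I → NN N → NN N → NN N} (hFS : FSFor N I r) (hev : Ev N ev)
    (hTE : ∀ η : R, 0 < η → ∃ (M : NN N) (F : NN N → D), 0 < M ∧ Intl N F ∧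
      (∀ j, j < M → nm (F j) = 1) ∧
      ∀ x, isum (fun j => nm (ev (F j) x) ^ 2) M ≤ η * rc R M * nm x ^ 2)
    (hNull : ∀ g : NN N → D, Intl N g → (∀ c, ∃ k, c < nm (g k)) →
      ∃ φ : D, nm φ = 1 ∧ ∀ x, (∃ c, ∀ k, nm (ev (g k) x) ≤ c) → ev φ x = 0)
    {q : NN N → NN N → K} [Intl N q]
    (hq : ∀ (n : NN N) (c : NN N → K), Intl N c → ∀ η : R, 0 < η →
      ∃ t, ∀ i, i < n → nm (c i - q t i) ≤ η) :
    ∃ φ : NN N → D, Intl N φ ∧ (∀ j, nm (φ j) = 1) ∧
      ∀ (n : NN N) (a : NN N → K) (η : R), Intl N a → 0 < η → ∃ x, nm x ≤ 1 ∧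
        (∀ j, n ≤ j ∨ a j = 0 → ev (φ j) x = 0) ∧
        nm (isum (fun i => a i • φ i) n) - η ≤ nm (ev (isum (fun i => a i • φ i) n) x) := by
  obtain ⟨hr, hrn, hFS⟩ := hFS
  have hd := hev.defF
  have hr3 : DefF N (fun p : I × NN N × NN N => r p.1 p.2.1 p.2.2) :=
    (((DefF.ofIntl r).comp DefF.id.fst).ap DefF.id.snd.fst).ap DefF.id.snd.snd
  obtain ⟨P, hP, h1⟩ := exists_intl_choice (N := N)
    (R := fun (k : NN N) (p : NN N × (NN N → D)) => (∀ j, j ≤ p.1 → nm (p.2 j) = 1) ∧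
      ∀ x, isum (fun j => nm (ev (p.2 j) x) ^ 2) (p.1 + 1) ≤
        ((rc R k + 1) ^ 4)⁻¹ * rc R (p.1 + 1) * nm x ^ 2) (by fun_prop) fun k => by
      obtain ⟨M, F, hM, hF, h2, h3⟩ := hTE _ (inv_pos.2 (pow_pos (rc_succ_pos (R := R) k) 4))
      rcases M.zero_or_add_one with rfl | ⟨n, rfl⟩
      · exact absurd hM (lt_irrefl _)
      · exact ⟨(n, F), inferInstance, fun j hj => h2 j (NN.lt_add_one_iff.2 hj), h3⟩
  obtain ⟨n, hn⟩ : ∃ n : NN N → NN N, n = fun k => (P k).1 := ⟨_, rfl⟩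
  obtain ⟨F, hF⟩ : ∃ F : NN N → NN N → D, F = fun k => (P k).2 := ⟨_, rfl⟩
  have hn' : DefF N n := by rw [hn]; fun_prop
  have hF' : DefF N (fun p : NN N × NN N => F p.1 p.2) := by
    rw [hF]; exact ((DefF.ofIntl P).comp DefF.id.fst).snd.ap DefF.id.snd
  have h2 : ∀ k j, j ≤ n k → nm (F k j) = 1 := by rw [hn, hF]; exact fun k => (h1 k).1
  have h3 : ∀ k x, isum (fun j => nm (ev (F k j) x) ^ 2) (n k + 1) ≤
      ((rc R k + 1) ^ 4)⁻¹ * rc R (n k + 1) * nm x ^ 2 := by rw [hn, hF]; exact fun k => (h1 k).2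
  clear hn hF h1 hP P
  have hG : DefF N (fun p : I × NN N => F p.2 (r p.1 p.2 (n p.2))) :=
    hF'.comp2 DefF.id.snd (DefF.comp (g := fun p : I × NN N => (p.1, p.2, n p.2)) hr3
      (by fun_prop))
  obtain ⟨φ, hφ, h4⟩ := exists_intl_choiceT (N := N) (R := fun (a : I) (φ : D) => nm φ = 1 ∧
      ∀ x, (∃ c, ∀ k, nm (ev (algebraMap R K (rc R k) • F k (r a k (n k))) x) ≤ c) → ev φ x = 0)
    (by fun_prop) fun a => hNull _ (DefF.toIntl (by fun_prop)) fun c => by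
      obtain ⟨k, hk⟩ := exists_rc_gt N c
      exact ⟨k, by rwa [nm_ofR_smul_of_nonneg (rc_nonneg k), h2 _ _ (hrn _ _ _), mul_one]⟩
  have hN := DefF.nrm hev φ
  obtain ⟨y, hy, h5⟩ := exists_defF_choice (N := N)
    (R := fun (s : Set I) (y : NN N → E) => (∀ m, nm (y m) ≤ 1) ∧
      ((∃ t : NN N → I, Intl N t ∧ s ⊆ Set.range t) → Nrm N ev φ s y)) (by fun_prop) fun s _ => by
      by_cases hs : ∃ t : NN N → I, Intl N t ∧ s ⊆ Set.range t
      · obtain ⟨t, ht, hs⟩ := hs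
        obtain ⟨y, hy, h6, h7⟩ := exists_nrm hev hq (fun a => (h4 a).1) t
        exact ⟨y, hy, h6, fun _ M a ha h hh H => h7 M a ha h hh fun i hi c => hs (H i hi c)⟩
      · exact ⟨fun _ => 0, inferInstance, fun _ => by simp, fun h => absurd h hs⟩
  have hy2 : DefF N (fun p : Set I × NN N => y p.1 p.2) := (hy.comp DefF.id.fst).ap DefF.id.snd
  obtain ⟨g, hg, h6⟩ := hFS {p | Intl N p ∧ p.2.2.2.1 = n p.2.2.1 ∧
      1 < (rc R p.2.2.1 + 1) * nm (ev (F p.2.2.1 p.2.2.2.2) (y p.1 p.2.1))}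
    (intl_setOf (by fun_prop)) fun T m k => ⟨fun _ _ _ _ h h' => h.2.1.trans h'.2.1.symm,
      fun n' c e he hm hb => by
        rcases c.zero_or_add_one with rfl | ⟨d, rfl⟩
        · rw [zero_mul]; exact NN.zero_le' _
        obtain ⟨-, hT, h0, -⟩ := hb d d.lt_add_one
        obtain rfl : n' = n k := h0
        have hT' : Intl N T := (DefF.id.fst).intl (T, m, k, n k, e d)
        have := hy.intl T
        refine count_bad (v := fun j => nm (ev (F k j) (y T m))) (by fun_prop)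
          ((h3 k _).trans (mul_le_of_le_one_right (mul_nonneg (by
            have := rc_succ_pos (R := R) k; positivity) (rc_nonneg _))
            (pow_le_one₀ (nm_nonneg _) ((h5 T hT').1 m)))) (DefF.ofIntl e) hm
          fun i hi => ⟨(hb i hi).1, (hb i hi).2.2.2⟩⟩
  refine ⟨fun j => φ (g j), DefF.toIntl (by fun_prop), fun j => (h4 _).1, fun M a η ha hη => ?_⟩
  have hT : Intl N {j | j < M ∧ a j ≠ 0} := intl_setOfT (by fun_prop)
  have hs : Intl N (g '' {j | j < M ∧ a j ≠ 0}) := intl_image (DefF.ofIntl g) _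
  obtain ⟨h7, h8⟩ := h5 _ hs
  obtain ⟨m, hm⟩ := h8 ⟨g, hg, Set.image_subset_range _ _⟩ M a ha g hg
    (fun i hi c => ⟨i, ⟨hi, c⟩, rfl⟩) η hη
  refine ⟨_, h7 m, fun j hj => (h4 (g j)).2 _ ?_, hm⟩
  obtain ⟨k₀, hk₀⟩ := h6 _ hT ⟨M, fun i hi => hi.1⟩ j
    (fun c => hj.elim (fun d => absurd c.1 (not_lt.2 d)) c.2) m
  generalize g '' {j | j < M ∧ a j ≠ 0} = s at hs hk₀
  have := hy.intl s
  obtain ⟨c, hc⟩ := exists_ibound (f := fun k =>
    nm (ev (algebraMap R K (rc R k) • F k (r (g j) k (n k))) (y s m))) (by fun_prop) k₀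
  refine ⟨max _ 1, fun k => (lt_or_ge k k₀).elim (fun hk => (hc k hk).trans (le_max_left _ _))
    fun hk => ?_⟩
  have h9 := not_lt.1 fun h => hk₀ k hk (n k) ⟨inferInstance, rfl, h⟩
  rw [hev.smul, KA.nm_mul, KA.nm_ofR_of_nonneg (rc_nonneg k)]
  refine le_trans ?_ (h9.trans (le_max_right _ _))
  exact mul_le_mul_of_nonneg_right (le_add_of_nonneg_right zero_le_one) (nm_nonneg _)

end Vale.Agent.P129B
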